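import Vale.Agent.P181.HO.Defs
import Vale.Agent.P181.DH.H89.Tri

set_option autoImplicit false

/-!
# P181, HO (HO2): the vacuum block in four columns

`S = P₁² + P₂² + P₃²`, where `P₁, P₂, P₃` are the brackets of the differences of the three
pairings of four columns; `S²` has weight `(4, 4)`.
-/

open MvPolynomial

namespace Vale.Agent.P181.HO.H850

open Vale.Agent.P181.T4 (HW rowOp mem_HW_iff_isWeightedHomogeneous rowW)
open Vale.Agent.P181.SZR3 (rowD rowD_X rowD_eq)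
open Vale.Agent.P181.DG (PKT)

/-- The variable `(i, k)`. -/
noncomputable def x {m : ℕ} (i : Fin m) (k : Fin 4) : MvPolynomial (Fin m × (Fin 0 ⊕ Fin 4)) ℂ :=
  X (i, Sum.inr k)

/-- The bracket of the differences `i - j`, `k - l`. -/
noncomputable def br {m : ℕ} (r s : Fin m) (i j k l : Fin 4) :
    MvPolynomial (Fin m × (Fin 0 ⊕ Fin 4)) ℂ :=
  (x r i - x r j) * (x s k - x s l) - (x r k - x r l) * (x s i - x s j)

/-- `P₁² + P₂² + P₃²`. -/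
noncomputable def sq4 {m : ℕ} (r s : Fin m) : MvPolynomial (Fin m × (Fin 0 ⊕ Fin 4)) ℂ :=
  br r s 0 1 2 3 ^ 2 + br r s 0 2 1 3 ^ 2 + br r s 0 3 1 2 ^ 2

lemma rename_br {m : ℕ} (r s : Fin m) (e : Equiv.Perm (Fin 0)) (g : Equiv.Perm (Fin 4))
    (i j k l : Fin 4) :
    rename (fun p : Fin m × (Fin 0 ⊕ Fin 4) => (p.1, Sum.map e g p.2)) (br r s i j k l) =
      br r s (g i) (g j) (g k) (g l) := by
  simp only [br, x, map_sub, map_mul, rename_X, Sum.map_inr]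

/-- `P₁² + P₂² + P₃²` at values. -/
def Sf {A : Type} [CommRing A] (y z : Fin 4 → A) : A :=
  ((y 0 - y 1) * (z 2 - z 3) - (y 2 - y 3) * (z 0 - z 1)) ^ 2 +
    ((y 0 - y 2) * (z 1 - z 3) - (y 1 - y 3) * (z 0 - z 2)) ^ 2 +
    ((y 0 - y 3) * (z 1 - z 2) - (y 1 - y 2) * (z 0 - z 3)) ^ 2

lemma Sf_swap {A : Type} [CommRing A] (i : Fin 3) (y z : Fin 4 → A) :
    Sf (y ∘ (Equiv.swap i.castSucc i.succ)) (z ∘ (Equiv.swap i.castSucc i.succ)) = Sf y z := by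
  have h01 : (0 : Fin 4) ≠ 1 := by decide
  have h02 : (0 : Fin 4) ≠ 2 := by decide
  have h03 : (0 : Fin 4) ≠ 3 := by decide
  have h12 : (1 : Fin 4) ≠ 2 := by decide
  have h13 : (1 : Fin 4) ≠ 3 := by decide
  have h23 : (2 : Fin 4) ≠ 3 := by decide
  have h : ∀ (f : Fin 4 → A) (a b : Fin 4), a ≠ b → (f ∘ (Equiv.swap a b)) a = f b ∧
      (f ∘ (Equiv.swap a b)) b = f a ∧ ∀ c, c ≠ a → c ≠ b → (f ∘ (Equiv.swap a b)) c = f c := by
    intro f a b _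
    refine ⟨?_, ?_, fun c h1 h2 => ?_⟩
    · rw [Function.comp_apply, Equiv.swap_apply_left]
    · rw [Function.comp_apply, Equiv.swap_apply_right]
    · rw [Function.comp_apply, Equiv.swap_apply_of_ne_of_ne h1 h2]
  obtain rfl | rfl | rfl : i = 0 ∨ i = 1 ∨ i = 2 := by
    fin_cases i <;> simp
  · have e1 : (0 : Fin 3).castSucc = 0 := rfl
    have e2 : (0 : Fin 3).succ = 1 := rfl
    rw [e1, e2]
    obtain ⟨a1, a2, a3⟩ := h y 0 1 h01
    obtain ⟨b1, b2, b3⟩ := h z 0 1 h01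
    rw [Sf, a1, a2, a3 2 h02.symm h12.symm, a3 3 h03.symm h13.symm, b1, b2,
      b3 2 h02.symm h12.symm, b3 3 h03.symm h13.symm, Sf]
    ring
  · have e1 : (1 : Fin 3).castSucc = 1 := rfl
    have e2 : (1 : Fin 3).succ = 2 := rfl
    rw [e1, e2]
    obtain ⟨a1, a2, a3⟩ := h y 1 2 h12
    obtain ⟨b1, b2, b3⟩ := h z 1 2 h12
    rw [Sf, a1, a2, a3 0 h01 h02, a3 3 h13.symm h23.symm, b1, b2,
      b3 0 h01 h02, b3 3 h13.symm h23.symm, Sf]
    ring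
  · have e1 : (2 : Fin 3).castSucc = 2 := rfl
    have e2 : (2 : Fin 3).succ = 3 := rfl
    rw [e1, e2]
    obtain ⟨a1, a2, a3⟩ := h y 2 3 h23
    obtain ⟨b1, b2, b3⟩ := h z 2 3 h23
    rw [Sf, a1, a2, a3 0 h02 h03, a3 1 h12 h13, b1, b2, b3 0 h02 h03, b3 1 h12 h13, Sf]
    ring

lemma Sf_perm {A : Type} [CommRing A] (g : Equiv.Perm (Fin 4)) :
    ∀ y z : Fin 4 → A, Sf (y ∘ g) (z ∘ g) = Sf y z := by
  have h : g ∈ Submonoid.closure (Set.range fun i : Fin 3 ↦ Equiv.swap i.castSucc i.succ) := by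
    rw [Equiv.Perm.mclosure_swap_castSucc_succ 3]
    trivial
  induction h using Submonoid.closure_induction with
  | mem e he =>
    obtain ⟨i, rfl⟩ := he
    exact Sf_swap i
  | one => exact fun y z => rfl
  | mul e f _ _ h1 h2 =>
    intro y z
    have h3 := h2 (y ∘ e) (z ∘ e)
    rw [h1] at h3
    exact h3

lemma sq4_eq {m : ℕ} (r s : Fin m) : sq4 r s = Sf (x r) (x s) := rfl

lemma rename_sq4 {m : ℕ} (r s : Fin m) (e : Equiv.Perm (Fin 0)) (g : Equiv.Perm (Fin 4)) :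
    rename (fun p : Fin m × (Fin 0 ⊕ Fin 4) => (p.1, Sum.map e g p.2)) (sq4 r s) = sq4 r s := by
  conv_rhs => rw [sq4_eq, ← Sf_perm g (x r) (x s)]
  simp only [sq4, map_add, map_pow, rename_br]
  rfl

lemma sum_pderiv_mul {m : ℕ} (i : Fin m) {f g : MvPolynomial (Fin m × (Fin 0 ⊕ Fin 4)) ℂ}
    (hf : ∑ j : Fin 4, pderiv (i, (Sum.inr j : Fin 0 ⊕ Fin 4)) f = 0)
    (hg : ∑ j : Fin 4, pderiv (i, (Sum.inr j : Fin 0 ⊕ Fin 4)) g = 0) :
    ∑ j : Fin 4, pderiv (i, (Sum.inr j : Fin 0 ⊕ Fin 4)) (f * g) = 0 := by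
  have h : ∀ j : Fin 4, pderiv (i, (Sum.inr j : Fin 0 ⊕ Fin 4)) (f * g) =
      f * pderiv (i, (Sum.inr j : Fin 0 ⊕ Fin 4)) g +
        g * pderiv (i, (Sum.inr j : Fin 0 ⊕ Fin 4)) f := by
    intro j
    rw [Derivation.leibniz]
    simp only [smul_eq_mul]
  rw [Finset.sum_congr rfl fun j _ => h j, Finset.sum_add_distrib, ← Finset.mul_sum,
    ← Finset.mul_sum, hf, hg, mul_zero, mul_zero, add_zero]

lemma sum_pderiv_add {m : ℕ} (i : Fin m) {f g : MvPolynomial (Fin m × (Fin 0 ⊕ Fin 4)) ℂ}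
    (hf : ∑ j : Fin 4, pderiv (i, (Sum.inr j : Fin 0 ⊕ Fin 4)) f = 0)
    (hg : ∑ j : Fin 4, pderiv (i, (Sum.inr j : Fin 0 ⊕ Fin 4)) g = 0) :
    ∑ j : Fin 4, pderiv (i, (Sum.inr j : Fin 0 ⊕ Fin 4)) (f + g) = 0 := by
  rw [Finset.sum_congr rfl fun j _ => map_add _ f g, Finset.sum_add_distrib, hf, hg, add_zero]

lemma sum_pderiv_sub {m : ℕ} (i : Fin m) {f g : MvPolynomial (Fin m × (Fin 0 ⊕ Fin 4)) ℂ}
    (h : ∑ j : Fin 4, pderiv (i, (Sum.inr j : Fin 0 ⊕ Fin 4)) f =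
      ∑ j : Fin 4, pderiv (i, (Sum.inr j : Fin 0 ⊕ Fin 4)) g) :
    ∑ j : Fin 4, pderiv (i, (Sum.inr j : Fin 0 ⊕ Fin 4)) (f - g) = 0 := by
  rw [Finset.sum_congr rfl fun j _ => map_sub _ f g, Finset.sum_sub_distrib, h, sub_self]

lemma sum_pderiv_x {m : ℕ} (i r : Fin m) (k : Fin 4) :
    ∑ j : Fin 4, pderiv (i, (Sum.inr j : Fin 0 ⊕ Fin 4)) (x r k) = if r = i then 1 else 0 := by
  simp only [x, SZR3.pderiv_X', Prod.mk.injEq, Sum.inr.injEq]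
  by_cases h : r = i
  · simp [h]
  · simp [h]

lemma sum_pderiv_br {m : ℕ} (i r s : Fin m) (a b c d : Fin 4) :
    ∑ j : Fin 4, pderiv (i, (Sum.inr j : Fin 0 ⊕ Fin 4)) (br r s a b c d) = 0 := by
  have h : ∀ (t : Fin m) (u v : Fin 4),
      ∑ j : Fin 4, pderiv (i, (Sum.inr j : Fin 0 ⊕ Fin 4)) (x t u - x t v) = 0 := fun t u v =>
    sum_pderiv_sub i (by rw [sum_pderiv_x, sum_pderiv_x])
  exact sum_pderiv_sub i (by
    rw [sum_pderiv_mul i (h r a b) (h s c d), sum_pderiv_mul i (h r c d) (h s a b)])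

lemma sum_pderiv_sq {m : ℕ} (i : Fin m) {f : MvPolynomial (Fin m × (Fin 0 ⊕ Fin 4)) ℂ}
    (hf : ∑ j : Fin 4, pderiv (i, (Sum.inr j : Fin 0 ⊕ Fin 4)) f = 0) :
    ∑ j : Fin 4, pderiv (i, (Sum.inr j : Fin 0 ⊕ Fin 4)) (f ^ 2) = 0 := by
  rw [sq]
  exact sum_pderiv_mul i hf hf

lemma sum_pderiv_sq4 {m : ℕ} (i r s : Fin m) :
    ∑ j : Fin 4, pderiv (i, (Sum.inr j : Fin 0 ⊕ Fin 4)) (sq4 r s ^ 2) = 0 :=
  sum_pderiv_sq i (sum_pderiv_add i (sum_pderiv_add i (sum_pderiv_sq i (sum_pderiv_br ..))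
    (sum_pderiv_sq i (sum_pderiv_br ..))) (sum_pderiv_sq i (sum_pderiv_br ..)))

lemma rowD_br {m : ℕ} {r s a i : Fin m} (hr : r ≠ i) (hs : s = i → a = r) (j k l u : Fin 4) :
    rowD a i (br r s j k l u) = 0 := by
  simp only [br, x, map_sub, Derivation.leibniz, rowD_X, smul_eq_mul, if_neg hr]
  by_cases h : s = i
  · simp only [if_pos h, hs h]
    ring
  · simp only [if_neg h]
    ring

lemma rowD_sq {m : ℕ} {a i : Fin m} {f : MvPolynomial (Fin m × (Fin 0 ⊕ Fin 4)) ℂ}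
    (h : rowD a i f = 0) : rowD a i (f ^ 2) = 0 := by
  rw [sq, Derivation.leibniz, h, smul_zero, add_zero]

lemma rowOp_sq4 {m : ℕ} {r s a i : Fin m} (hr : r ≠ i) (hs : s = i → a = r) :
    rowOp a i (sq4 r s ^ 2) = 0 := by
  rw [← rowD_eq]
  refine rowD_sq ?_
  rw [sq4, map_add, map_add, rowD_sq (rowD_br hr hs _ _ _ _), rowD_sq (rowD_br hr hs _ _ _ _),
    rowD_sq (rowD_br hr hs _ _ _ _), add_zero, add_zero]

lemma wh_sub {m : ℕ} {p q : MvPolynomial (Fin m × (Fin 0 ⊕ Fin 4)) ℂ} {n : Fin m → ℕ}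
    (hp : IsWeightedHomogeneous (rowW m (Fin 0 ⊕ Fin 4)) p n)
    (hq : IsWeightedHomogeneous (rowW m (Fin 0 ⊕ Fin 4)) q n) :
    IsWeightedHomogeneous (rowW m (Fin 0 ⊕ Fin 4)) (p - q) n :=
  (weightedHomogeneousSubmodule ℂ (rowW m (Fin 0 ⊕ Fin 4)) n).sub_mem hp hq

lemma wh_add {m : ℕ} {p q : MvPolynomial (Fin m × (Fin 0 ⊕ Fin 4)) ℂ} {n : Fin m → ℕ}
    (hp : IsWeightedHomogeneous (rowW m (Fin 0 ⊕ Fin 4)) p n)
    (hq : IsWeightedHomogeneous (rowW m (Fin 0 ⊕ Fin 4)) q n) :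
    IsWeightedHomogeneous (rowW m (Fin 0 ⊕ Fin 4)) (p + q) n :=
  (weightedHomogeneousSubmodule ℂ (rowW m (Fin 0 ⊕ Fin 4)) n).add_mem hp hq

lemma wh_br {m : ℕ} (r s : Fin m) (i j k l : Fin 4) :
    IsWeightedHomogeneous (rowW m (Fin 0 ⊕ Fin 4)) (br r s i j k l)
      (Pi.single r 1 + Pi.single s 1) := by
  have h : ∀ (t : Fin m) (u : Fin 4), IsWeightedHomogeneous (rowW m (Fin 0 ⊕ Fin 4)) (x t u)
      (Pi.single t 1) := fun t u => isWeightedHomogeneous_X ℂ (rowW m (Fin 0 ⊕ Fin 4)) (t, _)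
  have h2 : ∀ (t : Fin m) (u v : Fin 4), IsWeightedHomogeneous (rowW m (Fin 0 ⊕ Fin 4))
      (x t u - x t v) (Pi.single t 1) := fun t u v => wh_sub (h t u) (h t v)
  exact wh_sub ((h2 r i j).mul (h2 s k l)) ((h2 r k l).mul (h2 s i j))

lemma sq4_mem_HW {m : ℕ} {r s : Fin m} (hr : ∀ a i : Fin m, a < i → r ≠ i)
    (hs : ∀ a i : Fin m, a < i → s = i → a = r) :
    sq4 r s ^ 2 ∈ HW m (Fin 0 ⊕ Fin 4) (2 • (2 • (Pi.single r 1 + Pi.single s 1))) := by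
  rw [mem_HW_iff_isWeightedHomogeneous]
  exact ⟨(wh_add (wh_add ((wh_br r s _ _ _ _).pow 2) ((wh_br r s _ _ _ _).pow 2))
    ((wh_br r s _ _ _ _).pow 2)).pow 2, fun a i h => rowOp_sq4 (hr a i h) (hs a i h)⟩

/-- Degree at most `n` in the column `j`. -/
def CD {m : ℕ} (f : MvPolynomial (Fin m × (Fin 0 ⊕ Fin 4)) ℂ) (n : ℕ) : Prop :=
  ∀ v, coeff v f ≠ 0 → ∀ j : Fin 4, ∑ i, v (i, Sum.inr j) ≤ n

lemma CD.add {m n : ℕ} {f g : MvPolynomial (Fin m × (Fin 0 ⊕ Fin 4)) ℂ} (hf : CD f n)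
    (hg : CD g n) : CD (f + g) n := by
  intro v hv j
  rw [coeff_add] at hv
  by_cases h : coeff v f = 0
  · rw [h, zero_add] at hv
    exact hg v hv j
  · exact hf v h j

lemma CD.sub {m n : ℕ} {f g : MvPolynomial (Fin m × (Fin 0 ⊕ Fin 4)) ℂ} (hf : CD f n)
    (hg : CD g n) : CD (f - g) n := by
  intro v hv j
  rw [coeff_sub] at hv
  by_cases h : coeff v f = 0
  · rw [h, zero_sub, neg_ne_zero] at hv
    exact hg v hv j
  · exact hf v h j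

lemma CD.sq {m n : ℕ} {f : MvPolynomial (Fin m × (Fin 0 ⊕ Fin 4)) ℂ} (hf : CD f n) :
    CD (f ^ 2) (2 * n) := by
  classical
  intro v hv j
  rw [pow_two, coeff_mul] at hv
  obtain ⟨⟨u1, u2⟩, hu, h⟩ := Finset.exists_ne_zero_of_sum_ne_zero hv
  rw [Finset.HasAntidiagonal.mem_antidiagonal] at hu
  have h1 := hf u1 (left_ne_zero_of_mul h) j
  have h2 := hf u2 (right_ne_zero_of_mul h) j
  rw [← hu]
  simp only [Finsupp.add_apply, Finset.sum_add_distrib]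
  omega

lemma CD_xx {m : ℕ} (r s : Fin m) {u v : Fin 4} (huv : u ≠ v) : CD (x r u * x s v) 1 := by
  classical
  intro w hw j
  rw [x, x, X, X, monomial_mul, coeff_monomial] at hw
  split_ifs at hw with h1
  · rw [← h1]
    simp only [Finsupp.add_apply, Finset.sum_add_distrib]
    have h2 : ∀ (k : Fin m) (z : Fin 4), ∑ i, (Finsupp.single (k, (Sum.inr z : Fin 0 ⊕ Fin 4)) 1 :
        Fin m × (Fin 0 ⊕ Fin 4) →₀ ℕ) (i, Sum.inr j) = if z = j then 1 else 0 := by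
      intro k z
      simp only [Finsupp.single_apply, Prod.mk.injEq, Sum.inr.injEq]
      by_cases hz : z = j
      · simp [hz]
      · simp [hz]
    rw [h2, h2]
    by_cases hx : u = j
    · rw [if_pos hx, if_neg (fun hy => huv (hx.trans hy.symm))]
    · rw [if_neg hx]
      split_ifs <;> omega
  · exact absurd rfl hw

lemma CD_br {m : ℕ} (r s : Fin m) {i j k l : Fin 4} (h1 : i ≠ k) (h2 : i ≠ l) (h3 : j ≠ k)
    (h4 : j ≠ l) : CD (br r s i j k l) 1 := by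
  have h : br r s i j k l = (x r i * x s k - x r i * x s l - (x r j * x s k - x r j * x s l)) -
      ((x r k * x s i - x r k * x s j) - (x r l * x s i - x r l * x s j)) := by
    rw [br]
    ring
  rw [h]
  exact (((CD_xx r s h1).sub (CD_xx r s h2)).sub ((CD_xx r s h3).sub (CD_xx r s h4))).sub
    (((CD_xx r s h1.symm).sub (CD_xx r s h3.symm)).sub ((CD_xx r s h2.symm).sub
      (CD_xx r s h4.symm)))

lemma CD_sq4 {m : ℕ} (r s : Fin m) : CD (sq4 r s ^ 2) 4 :=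
  (((CD_br r s (by decide) (by decide) (by decide) (by decide)).sq.add
    (CD_br r s (by decide) (by decide) (by decide) (by decide)).sq).add
    (CD_br r s (by decide) (by decide) (by decide) (by decide)).sq).sq

/-- The monomial `x₀^p x₁^q y₂^u y₃^v`. -/
noncomputable def ex4 {m : ℕ} (r s : Fin m) (p q u v : ℕ) : Fin m × (Fin 0 ⊕ Fin 4) →₀ ℕ :=
  Finsupp.single (r, Sum.inr 0) p + Finsupp.single (r, Sum.inr 1) q +
    Finsupp.single (s, Sum.inr 2) u + Finsupp.single (s, Sum.inr 3) v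

lemma mono4 {m : ℕ} (r s : Fin m) (p q u v : ℕ) :
    x r 0 ^ p * x r 1 ^ q * x s 2 ^ u * x s 3 ^ v = monomial (ex4 r s p q u v) 1 := by
  simp only [x, ex4, X_pow_eq_monomial, monomial_mul, mul_one]

lemma ex4_inj {m : ℕ} {r s : Fin m} {p q u v p' q' u' v' : ℕ}
    (h : ex4 r s p q u v = ex4 r s p' q' u' v') : p = p' ∧ q = q' ∧ u = u' ∧ v = v' := by
  have h0 := DFunLike.congr_fun h (r, Sum.inr 0)
  have h1 := DFunLike.congr_fun h (r, Sum.inr 1)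
  have h2 := DFunLike.congr_fun h (s, Sum.inr 2)
  have h3 := DFunLike.congr_fun h (s, Sum.inr 3)
  simp [ex4] at h0 h1 h2 h3
  exact ⟨h0, h1, h2, h3⟩

lemma co {m : ℕ} (r s : Fin m) (z : ℂ) {p q u v : ℕ} (h : ¬(p = 2 ∧ q = 2 ∧ u = 2 ∧ v = 2)) :
    coeff (ex4 r s 2 2 2 2) (C z * (x r 0 ^ p * x r 1 ^ q * x s 2 ^ u * x s 3 ^ v)) = 0 := by
  classical
  rw [mono4, coeff_C_mul, coeff_monomial, if_neg (fun h1 => h (ex4_inj h1)), mul_zero]

lemma co2 {m : ℕ} (r s : Fin m) (z : ℂ) :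
    coeff (ex4 r s 2 2 2 2) (C z * (x r 0 ^ 2 * x r 1 ^ 2 * x s 2 ^ 2 * x s 3 ^ 2)) = z := by
  classical
  rw [mono4, coeff_C_mul, coeff_monomial, if_pos rfl, mul_one]

lemma coeff_sq4 {m : ℕ} {r s : Fin m} (hrs : r ≠ s) :
    coeff (ex4 r s 2 2 2 2) (sq4 r s ^ 2) = 32 := by
  classical
  have h0 : ∀ p, ex4 r s 2 2 2 2 p = (if (r, Sum.inr 0) = p then 2 else 0) +
      (if (r, Sum.inr 1) = p then 2 else 0) + (if (s, Sum.inr 2) = p then 2 else 0) +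
      (if (s, Sum.inr 3) = p then 2 else 0) := by
    intro p
    simp only [ex4, Finsupp.add_apply, Finsupp.single_apply]
  rw [← DH.H89.coeff_kill]
  have hx : ∀ (i : Fin m) (k : Fin 4), aeval (fun p => if ex4 r s 2 2 2 2 p = 0 then
      (0 : MvPolynomial (Fin m × (Fin 0 ⊕ Fin 4)) ℂ) else X p) (x i k) =
      if ex4 r s 2 2 2 2 (i, Sum.inr k) = 0 then 0 else x i k := fun i k => by
    rw [x, aeval_X]
  have hbr : ∀ i j k l : Fin 4, aeval (fun p => if ex4 r s 2 2 2 2 p = 0 then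
      (0 : MvPolynomial (Fin m × (Fin 0 ⊕ Fin 4)) ℂ) else X p) (br r s i j k l) =
      ((if i = 0 ∨ i = 1 then x r i else 0) - (if j = 0 ∨ j = 1 then x r j else 0)) *
        ((if k = 2 ∨ k = 3 then x s k else 0) - (if l = 2 ∨ l = 3 then x s l else 0)) -
      ((if k = 0 ∨ k = 1 then x r k else 0) - (if l = 0 ∨ l = 1 then x r l else 0)) *
        ((if i = 2 ∨ i = 3 then x s i else 0) - (if j = 2 ∨ j = 3 then x s j else 0)) := by
    have h1 : ∀ k : Fin 4, (if ex4 r s 2 2 2 2 (r, Sum.inr k) = 0 then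
        (0 : MvPolynomial (Fin m × (Fin 0 ⊕ Fin 4)) ℂ) else x r k) =
        if k = 0 ∨ k = 1 then x r k else 0 := by
      intro k
      rw [h0]
      fin_cases k <;> simp [Ne.symm hrs]
    have h2 : ∀ k : Fin 4, (if ex4 r s 2 2 2 2 (s, Sum.inr k) = 0 then
        (0 : MvPolynomial (Fin m × (Fin 0 ⊕ Fin 4)) ℂ) else x s k) =
        if k = 2 ∨ k = 3 then x s k else 0 := by
      intro k
      rw [h0]
      fin_cases k <;> simp [hrs]
    intro i j k l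
    rw [br, map_sub, map_mul, map_mul, map_sub, map_sub, map_sub, map_sub]
    simp only [hx, h1, h2]
  have h1 : aeval (fun p => if ex4 r s 2 2 2 2 p = 0 then
      (0 : MvPolynomial (Fin m × (Fin 0 ⊕ Fin 4)) ℂ) else X p) (sq4 r s ^ 2) =
      C 32 * (x r 0 ^ 2 * x r 1 ^ 2 * x s 2 ^ 2 * x s 3 ^ 2) +
      (C 4 * (x r 0 ^ 4 * x r 1 ^ 0 * x s 2 ^ 4 * x s 3 ^ 0) +
      C 12 * (x r 0 ^ 4 * x r 1 ^ 0 * x s 2 ^ 2 * x s 3 ^ 2) +
      C 12 * (x r 0 ^ 2 * x r 1 ^ 2 * x s 2 ^ 4 * x s 3 ^ 0) +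
      C (-8) * (x r 0 ^ 4 * x r 1 ^ 0 * x s 2 ^ 3 * x s 3 ^ 1) +
      C (-16) * (x r 0 ^ 2 * x r 1 ^ 2 * x s 2 ^ 3 * x s 3 ^ 1) +
      C (-8) * (x r 0 ^ 3 * x r 1 ^ 1 * x s 2 ^ 4 * x s 3 ^ 0) +
      C (-16) * (x r 0 ^ 3 * x r 1 ^ 1 * x s 2 ^ 2 * x s 3 ^ 2) +
      C 4 * (x r 0 ^ 4 * x r 1 ^ 0 * x s 2 ^ 0 * x s 3 ^ 4) +
      C 12 * (x r 0 ^ 2 * x r 1 ^ 2 * x s 2 ^ 0 * x s 3 ^ 4) +
      C (-8) * (x r 0 ^ 4 * x r 1 ^ 0 * x s 2 ^ 1 * x s 3 ^ 3) +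
      C (-16) * (x r 0 ^ 2 * x r 1 ^ 2 * x s 2 ^ 1 * x s 3 ^ 3) +
      C (-8) * (x r 0 ^ 3 * x r 1 ^ 1 * x s 2 ^ 0 * x s 3 ^ 4) +
      C 4 * (x r 0 ^ 0 * x r 1 ^ 4 * x s 2 ^ 4 * x s 3 ^ 0) +
      C 12 * (x r 0 ^ 0 * x r 1 ^ 4 * x s 2 ^ 2 * x s 3 ^ 2) +
      C (-8) * (x r 0 ^ 0 * x r 1 ^ 4 * x s 2 ^ 3 * x s 3 ^ 1) +
      C (-8) * (x r 0 ^ 1 * x r 1 ^ 3 * x s 2 ^ 4 * x s 3 ^ 0) +
      C (-16) * (x r 0 ^ 1 * x r 1 ^ 3 * x s 2 ^ 2 * x s 3 ^ 2) +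
      C 4 * (x r 0 ^ 0 * x r 1 ^ 4 * x s 2 ^ 0 * x s 3 ^ 4) +
      C (-8) * (x r 0 ^ 0 * x r 1 ^ 4 * x s 2 ^ 1 * x s 3 ^ 3) +
      C (-8) * (x r 0 ^ 1 * x r 1 ^ 3 * x s 2 ^ 0 * x s 3 ^ 4) +
      C 8 * (x r 0 ^ 3 * x r 1 ^ 1 * x s 2 ^ 3 * x s 3 ^ 1) +
      C 8 * (x r 0 ^ 3 * x r 1 ^ 1 * x s 2 ^ 1 * x s 3 ^ 3) +
      C 8 * (x r 0 ^ 1 * x r 1 ^ 3 * x s 2 ^ 3 * x s 3 ^ 1) +
      C 8 * (x r 0 ^ 1 * x r 1 ^ 3 * x s 2 ^ 1 * x s 3 ^ 3)) := by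
    simp only [sq4, map_pow, map_add, hbr]
    simp [map_neg, map_ofNat]
    ring
  rw [h1, coeff_add, co2]
  simp only [coeff_add]
  rw [co _ _ _ (by decide), co _ _ _ (by decide), co _ _ _ (by decide), co _ _ _ (by decide),
    co _ _ _ (by decide), co _ _ _ (by decide), co _ _ _ (by decide), co _ _ _ (by decide),
    co _ _ _ (by decide), co _ _ _ (by decide), co _ _ _ (by decide), co _ _ _ (by decide),
    co _ _ _ (by decide), co _ _ _ (by decide), co _ _ _ (by decide), co _ _ _ (by decide),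
    co _ _ _ (by decide), co _ _ _ (by decide), co _ _ _ (by decide), co _ _ _ (by decide),
    co _ _ _ (by decide), co _ _ _ (by decide), co _ _ _ (by decide), co _ _ _ (by decide)]
  norm_num

/-- **The four-column vacuum block.** -/
theorem four (m S : ℕ) (hm : 2 ≤ m) (hS : 5 ≤ S) : Vac m S 4 4 := by
  classical
  let r : Fin m := ⟨0, by omega⟩
  let s : Fin m := ⟨1, by omega⟩
  have hrs : r ≠ s := by
    intro h
    have := congrArg Fin.val h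
    simp [r, s] at this
  have hmu : two m 4 = 2 • (2 • (Pi.single r 1 + Pi.single s 1)) := by
    funext i
    simp only [two, Pi.smul_apply, Pi.add_apply, Pi.single_apply, smul_eq_mul]
    have hr' : i = r ↔ (i : ℕ) = 0 := by
      rw [Fin.ext_iff]
    have hs' : i = s ↔ (i : ℕ) = 1 := by
      rw [Fin.ext_iff]
    simp only [hr', hs']
    split_ifs <;> omega
  have hr1 : ∀ a i : Fin m, a < i → r ≠ i := by
    intro a i h1 h2
    have h3 : (a : ℕ) < i := h1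
    rw [← h2] at h3
    simp [r] at h3
  have hs1 : ∀ a i : Fin m, a < i → s = i → a = r := by
    intro a i h1 h2
    have h3 : (a : ℕ) < i := h1
    rw [← h2] at h3
    apply Fin.ext
    simp [r, s] at h3 ⊢
    omega
  refine ⟨sq4 r s ^ 2, ?_, ex4 r s 2 2 2 2, ?_, ?_⟩
  · rw [hmu]
    refine ⟨sq4_mem_HW hr1 hs1, fun v hv => ⟨fun j => j.elim0, fun j => ?_⟩, fun e g _ => ?_,
      fun i => sum_pderiv_sq4 i r s⟩
    · exact lt_of_le_of_lt (CD_sq4 r s v hv j) (by omega)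
    · rw [map_pow, rename_sq4]
  · rw [coeff_sq4 hrs]
    norm_num
  · intro j h
    rw [Finset.sum_eq_zero_iff] at h
    have hr2 := h r (Finset.mem_univ _)
    have hs2 := h s (Finset.mem_univ _)
    fin_cases j <;> simp [ex4] at hr2 hs2

end Vale.Agent.P181.HO.H850
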